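import Vale.Agent.P131.Universal
import Vale.Agent.P131.Construct
import Vale.Agent.P131.Energy
import Vale.Agent.P131.Orbit
import Vale.Agent.P131.Final
import Vale.Agent.P131.Finite

/-!
P131: every separable infinite-dimensional complex Hilbert space carries a nonscalar bounded
operator without nontrivial closed hyperinvariant subspace.
-/

namespace Vale.Agent.Results.P131.TransitiveCommutant

theorem result (H : Type*) [NormedAddCommGroup H] [InnerProductSpace ℂ H] [CompleteSpace H]
    [TopologicalSpace.SeparableSpace H] (hH : ¬FiniteDimensional ℂ H) :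
    ∃ T : H →L[ℂ] H, (∀ c : ℂ, T ≠ c • 1) ∧
      ∀ K : Submodule ℂ H, IsClosed (K : Set H) →
        (∀ A : H →L[ℂ] H, A * T = T * A → ∀ x ∈ K, A x ∈ K) → K = ⊥ ∨ K = ⊤ :=
  Vale.Agent.P131.transitive_of_target
    (Vale.Agent.P131.target_of Vale.Agent.P131.model Vale.Agent.P131.finite
      (fun _ _ h => Vale.Agent.P131.pinch h) (fun _ _ h => Vale.Agent.P131.orbit h)
      (fun _ _ h => Vale.Agent.P131.Final.final h)) H hH

end Vale.Agent.Results.P131.TransitiveCommutant
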